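import Vale.Agent.P144Y.J.Ker
import Vale.Agent.P144Y.F.Fin
import Vale.Agent.P144Y.N.Hole
import Vale.Agent.P144Y.N.One
import Vale.Agent.P144X.P.Fin

/-!
The limits for the plus and minus boundary conditions in multiply connected domains do not depend
on the directions of the energies.
-/

namespace Vale.Agent.P144Y.J

open Filter Topology Finset Vale.Agent.P144
open Vale.Agent.P144.AL (Pf cenK Pf_congr)
open Vale.Agent.P144.H170 (rM)
open Vale.Agent.P144S.F (sj cl lb lb_cons mem_lb lb_even lb_prod wl sub_lb)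
open Vale.Agent.P144S.W (MM_pos)
open Vale.Agent.P144X.P (Pf_head upd TN tn_minus tn_div)

/-- The weights of the sets of components. -/
noncomputable def wt (P : ℝ → Finset Site) (T S : Finset ℂ) (a : ℝ) : ℝ :=
  MM (P a) (fm a S) / ∑ S ∈ T.powerset, MM (P a) (fm a S)

/-- The mean of an energy, up to the sign. -/
noncomputable def mt (P : ℝ → Finset Site) (T : Finset ℂ) (p : Pts) (a : ℝ) (k : Fin p.m) : ℝ :=
  ∑ S ∈ T.powerset, wt P T S a * Wf (P a) (fm a S) [cp p a k false, cp p a k true]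

/-- The entries of the Pfaffians. -/
noncomputable def ZZ (P : ℝ → Finset Site) (T : Finset ℂ) (p : Pts) (S : Finset ℂ) (a : ℝ)
    (x y : Fin p.m × Bool) : ℝ :=
  wl p.j x * wl p.j y * (Wf (P a) (Rq p a + fm a S) [cp p a x.1 x.2, cp p a y.1 y.2] -
    if x.1 = y.1 then mt P T p a x.1 else 0) / a

/-- The energies without the spins. -/
abbrev p0 (p : Pts) : Pts := ⟨0, p.m, Fin.elim0, p.y, p.j⟩

theorem good_p0 {D : Set ℂ} {p : Pts} (hp : Good0 D p) : Good0 D (p0 p) := by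
  refine ⟨fun i => i.elim0, hp.2.1, ?_⟩
  rintro (i | k) (i' | l) e
  exacts [i.elim0, i.elim0, i'.elim0,
    congrArg Sum.inr (Sum.inr_injective (hp.2.2 (by simpa using e)))]

theorem Rq_p0 (p : Pts) (a : ℝ) : Rq (p0 p) a = 0 := by simp [Rq, rM]

theorem wt_sum (P : ℝ → Finset Site) (T : Finset ℂ) (a : ℝ) :
    ∑ S ∈ T.powerset, wt P T S a = 1 := by
  unfold wt
  rw [← sum_div, div_self (sum_pos (fun _ _ => MM_pos _ _) ⟨∅, by simp⟩).ne']

theorem mt_sub (P : ℝ → Finset Site) (T : Finset ℂ) (p : Pts) (a : ℝ) (k : Fin p.m) :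
    (mt P T p a k - Wf (P a) 0 [cp p a k false, cp p a k true]) / a =
      ∑ S ∈ T.powerset, wt P T S a * DK P (p0 p) S k (p.j k) a := by
  unfold mt DK
  simp only [Rq_p0, zero_add, ← mul_div_assoc, ← sum_div, mul_sub, sum_sub_distrib, ← sum_mul,
    wt_sum, one_mul]
  rfl

/-- The correlations as sums of Pfaffians. -/
theorem corr_eq {J : ℝ} (hJ : 0 < J) {D : Set ℂ} {P : ℝ → Finset Site} {T : Finset ℂ}
    (hF : FamP D P) (hT : Rep P T) {p : Pts} (hp : Good0 D p) {s : List (Fin p.m)} (hsn : s.Nodup)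
    (hs : ∀ k, k ∈ s) : ∀ᶠ a in 𝓝[>] (0 : ℝ), corr a (pl J (P a)) p =
      (∑ S ∈ T.powerset, GW P (P144X.P.XX p) S a * Pf (ZZ P T p S a) (lb s)) /
        ∑ S ∈ T.powerset, MM (P a) (fm a S) := by
  have hx : Function.Injective p.x := fun i i' h => Sum.inl_injective (hp.2.2 (by simpa using h))
  have hy : Function.Injective p.y := fun i i' h => Sum.inr_injective (hp.2.2 (by simpa using h))
  have hpr : ∀ f : Fin p.m → ℝ, (s.map f).prod = ∏ k, f k := fun f => by
    rw [← List.prod_toFinset f hsn]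
    congr 1
    exact eq_univ_of_forall fun k => List.mem_toFinset.2 (hs k)
  have hsm : ∀ f : Fin p.m → ℝ, (s.map f).sum = ∑ k, f k := fun f => by
    rw [← List.sum_toFinset f hsn]
    congr 1
    exact eq_univ_of_forall fun k => List.mem_toFinset.2 (hs k)
  set t : ℝ → Fin p.m → ℝ := fun a k => sj (p.j k) * mt P T p a k with ht
  have e1 : ∀ᶠ a in 𝓝[>] (0 : ℝ), ∀ k l, k ≠ l →
      fl a (p.y k) + dir (p.j k) ≠ fl a (p.y l) + dir (p.j l) := by
    refine eventually_all.2 fun k => eventually_all.2 fun l => ?_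
    by_cases hkl : k = l
    · simp [hkl]
    · filter_upwards [H170.ev_ne_add AL.idt (AL.flt (p.y k)) (AL.flt (p.y l))
        (fun h => hkl (hy h)) (dir (p.j l) - dir (p.j k))] with a ha _ e
      exact ha (by rw [← add_sub_assoc, ← e, add_sub_cancel_right])
  have e2 : ∀ᶠ a in 𝓝[>] (0 : ℝ), ∀ k, fl a (p.y k) + dir (p.j k) ∈ P a := by
    refine eventually_all.2 fun k => ?_
    filter_upwards [hF.1.deep AL.idt (hp.2.1 k) (AL.flt _) 1] with a ha
    refine ha _ ?_ ?_ <;> unfold dir <;> split_ifs <;> simp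
  filter_upwards [e1, e2, hT, self_mem_nhdsWithin] with a h1 h2 h3 h4
  have ha : 0 < a := h4
  have e3 : ∀ S, Pf (ZZ P T p S a) (lb s) = Pf (fun x y => (√a)⁻¹ * (√a)⁻¹ *
      cenK (P144S.F.KK (P a) (Rq p a + fm a S) (fun k => fl a (p.y k)) p.j) (fun k => (k, false))
        (fun k => (k, true)) (t a) s x y) (lb s) := by
    intro S
    refine Pf_congr _ ?_
    rintro ⟨k, b⟩ ⟨l, b'⟩ h
    rw [← mul_inv, Real.mul_self_sqrt ha.le]
    unfold ZZ cenK
    rw [hsm, div_eq_inv_mul]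
    congr 1
    rcases sub_lb hsn h with h | ⟨h, hb, hb'⟩
    · rw [if_neg h, sum_eq_zero fun q _ => ?_, sub_zero, sub_zero]
      · rfl
      refine if_neg fun h' => h ?_
      exact (Prod.ext_iff.1 h'.1).1.trans (Prod.ext_iff.1 h'.2).1.symm
    · simp only at h hb hb'
      subst h hb hb'
      simp only [Prod.mk.injEq, and_true, and_self, sum_ite_eq, mem_univ, if_true, P144S.F.KK, wl,
        ht, cl, cp, Bool.false_eq_true, if_false]
      ring
  have e4 : ((lb s).map fun _ => (√a)⁻¹).prod = a⁻¹ ^ p.m := by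
    rw [lb_prod, ← mul_inv, Real.mul_self_sqrt ha.le, hpr]
    simp
  have e5 : fm a (P144X.P.XX p) = Rq p a := by
    unfold fm Rq rM P144X.P.XX
    rw [image_val_of_injOn hx.injOn, Multiset.map_map]
    rfl
  have e6 : a ^ (-((P144X.P.XX p).card : ℝ) / 8) = (a ^ (-(1 / 8) : ℝ)) ^ p.n := by
    unfold P144X.P.XX
    rw [← Real.rpow_natCast, ← Real.rpow_mul ha.le, card_image_of_injective _ hx, card_univ,
      Fintype.card_fin]
    congr 1
    ring
  simp only [e3, AL.Pf_scale _ (fun _ => (√a)⁻¹) _ (lb_even s), e4]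
  unfold corr GW
  simp only [F.mean hJ h3.1 h3.2]
  have e7 : (fun σ : Config => (∏ i, a ^ (-(1 / 8) : ℝ) * sp (σ (fl a (p.x i)))) *
      ∏ k, a⁻¹ * (sp (σ (fl a (p.y k))) * sp (σ (fl a (p.y k) + dir (p.j k))) -
        sj (p.j k) * ∑ S ∈ T.powerset, MM (P a) (S.val.map (fl a)) /
          (∑ S ∈ T.powerset, MM (P a) (S.val.map (fl a))) * Wf (P a) (S.val.map (fl a))
            [ce (fl a (p.y k)) (p.j k) false, ce (fl a (p.y k)) (p.j k) true])) =
      fun σ => ((a ^ (-(1 / 8) : ℝ)) ^ p.n * a⁻¹ ^ p.m) *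
        (((Rq p a).map fun x => sp (σ x)).prod * (s.map fun k => sp (σ (fl a (p.y k))) *
          sp (σ (fl a (p.y k) + dir (p.j k))) - t a k).prod) := by
    funext σ
    have e : ((Rq p a).map fun x => sp (σ x)).prod = ∏ i, sp (σ (fl a (p.x i))) := by
      unfold Rq rM
      rw [Multiset.map_map]
      rfl
    rw [e, prod_mul_distrib, prod_mul_distrib, prod_const, prod_const, card_univ, card_univ,
      Fintype.card_fin, Fintype.card_fin, hpr]
    simp only [ht, mt, wt, cp, fm]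
    ring
  rw [e7, e5, e6]
  unfold pl
  rw [P144Q.B.gibbs_cmul]
  have e8 := F.mixed h1 h2 hJ h3.1 h3.2 (Rq p a) hsn (t a)
  unfold pl at e8
  rw [e8, ← mul_div_assoc, mul_sum]
  congr 1
  refine sum_congr rfl fun S _ => ?_
  simp only [fm]
  ring

section

variable {P : ℝ → Finset Site} {T S : Finset ℂ} {p : Pts} {k : Fin p.m}

theorem ZZ_diag (a : ℝ) : ZZ P T p S a (k, false) (k, true) = sj (p.j k) *
    (DK P p S k (p.j k) a - ∑ S ∈ T.powerset, wt P T S a * DK P (p0 p) S k (p.j k) a) := by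
  rw [← mt_sub]
  unfold ZZ wl DK cp
  simp only [if_true, Bool.false_eq_true, if_false, one_mul]
  ring

/-- The entries converge. -/
theorem ZZ_lim {w : Finset ℂ → ℝ} (hw : ∀ S ∈ T.powerset, Tendsto (wt P T S) (𝓝[>] 0) (𝓝 (w S)))
    (k3 : K3W P p S) (k4 : K4W P p S) (k0 : ∀ S ⊆ T, K4W P (p0 p) S)
    {s : List (Fin p.m)} (hsn : s.Nodup) : ∃ L : Fin p.m × Bool → Fin p.m × Bool → ℝ, ∀ x y,
      [x, y].Sublist (lb s) → Tendsto (fun a => ZZ P T p S a x y) (𝓝[>] 0) (𝓝 (L x y)) := by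
  have hl : ∀ x y : Fin p.m × Bool, ∃ c : ℝ, [x, y].Sublist (lb s) →
      Tendsto (fun a => ZZ P T p S a x y) (𝓝[>] 0) (𝓝 c) := by
    rintro ⟨k, b⟩ ⟨l, b'⟩
    by_cases hkl : k = l
    · subst hkl
      obtain ⟨c, hc⟩ := k4 k
      have k1 : ∀ S ∈ T.powerset, ∃ c, Tendsto (DK P (p0 p) S k (p.j k)) (𝓝[>] 0) (𝓝 c) :=
        fun S hS => k0 S (mem_powerset.1 hS) k
      choose! c' hc' using k1
      refine ⟨sj (p.j k) * (c - ∑ S ∈ T.powerset, w S * c' S), fun h => ?_⟩
      obtain ⟨-, rfl, rfl⟩ := (sub_lb hsn h).resolve_left (by simp)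
      exact ((hc.sub (tendsto_finsetSum _ fun S hS => (hw S hS).mul (hc' S hS))).const_mul
        _).congr fun a => (ZZ_diag a).symm
    · obtain ⟨c, hc⟩ := k3 k l hkl b b'
      refine ⟨wl p.j (k, b) * wl p.j (l, b') * c, fun _ => (hc.const_mul _).congr fun a => ?_⟩
      unfold ZZ
      rw [if_neg hkl, sub_zero, mul_div_assoc]
  choose L hL using hl
  exact ⟨L, hL⟩

theorem ZZ_rest (e e' : Fin 2) (a : ℝ) {x y : Fin p.m × Bool} (hx : x.1 ≠ k) (hy : y.1 ≠ k) :
    ZZ P T (upd p k e) S a x y = ZZ P T (upd p k e') S a x y := by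
  unfold ZZ wl mt cp
  simp only [Function.update_of_ne hx, Function.update_of_ne hy]
  rfl

theorem ZZ_row (e : Fin 2) (a : ℝ) (b : Bool) {y : Fin p.m × Bool} (hy : k ≠ y.1) :
    ZZ P T (upd p k e) S a (k, b) y =
      (if b then sj e else 1) * wl p.j y * TK P p S k e b y.1 y.2 a := by
  unfold ZZ wl cp TK cp
  simp only [Function.update_of_ne hy.symm, Function.update_self, if_neg hy, sub_zero]
  rw [mul_div_assoc]
  rfl

theorem ZZ_self (e : Fin 2) (a : ℝ) : ZZ P T (upd p k e) S a (k, false) (k, true) =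
    sj e * (DK P p S k e a - ∑ S ∈ T.powerset, wt P T S a * DK P (p0 p) S k e a) := by
  rw [ZZ_diag (p := upd p k e)]
  simp only [Function.update_self]
  rfl

end

/-- **One energy is turned.** -/
theorem turn {J : ℝ} (hJ : 0 < J) {D : Set ℂ} {P : ℝ → Finset Site} {T : Finset ℂ}
    (hF : FamP D P) (hT : Rep P T) (hk : ∀ p, Good0 D p → ∀ S ⊆ T, K3W P p S ∧ K4W P p S)
    (hn : ∀ X : Finset ℂ, (∀ z ∈ X, z ∈ D) → ∀ S ⊆ T, Cv P X S)
    (hj : ∀ p, Good0 D p → ∀ S ⊆ T, ∀ k, KJ P p S k) {p : Pts} (hp : Good0 D p) (k : Fin p.m) :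
    ∃ c, ∀ e, Lim (fun a => pl J (P a)) (upd p k e) c := by
  have g0 : ∀ S ∈ T.powerset, ∃ g > 0, Tendsto (fun a => MM (P a) (fm a S)) (𝓝[>] 0) (𝓝 g) := by
    intro S hS
    obtain ⟨g, hg, h⟩ := hn ∅ (by simp) S (mem_powerset.1 hS)
    exact ⟨g, hg, h.congr fun a => by simp [GW, fm]⟩
  choose! g0 g1 g2 using g0
  have hZ := tendsto_finsetSum T.powerset g2
  have hZ0 : 0 < ∑ S ∈ T.powerset, g0 S := sum_pos g1 ⟨∅, by simp⟩
  have hw : ∀ S ∈ T.powerset, Tendsto (wt P T S) (𝓝[>] 0)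
      (𝓝 (g0 S / ∑ S ∈ T.powerset, g0 S)) := fun S hS => (g2 S hS).div hZ hZ0.ne'
  have g3 : ∀ S ∈ T.powerset, ∃ g, Tendsto (GW P (P144X.P.XX p) S) (𝓝[>] 0) (𝓝 g) := by
    intro S hS
    obtain ⟨g, -, h⟩ := hn (P144X.P.XX p) (fun z hz => by
      obtain ⟨i, -, rfl⟩ := mem_image.1 hz
      exact hp.1 i) S (mem_powerset.1 hS)
    exact ⟨g, h⟩
  choose! g hg using g3
  set r := (univ.erase k).toList with hr
  have hkr : k ∉ r := by simp [hr]
  have hsn : (k :: r).Nodup := List.nodup_cons.2 ⟨hkr, nodup_toList _⟩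
  have hs : ∀ l, l ∈ k :: r := fun l => by
    by_cases h : l = k <;> simp [hr, h]
  have hne : ∀ y ∈ lb r, y.1 ≠ k := fun y hy h => hkr (h ▸ mem_lb hy)
  have s0 : sj 0 = 1 := by simp [sj]
  have s1 : sj 1 = -1 := by simp [sj]
  have d0 : ∀ S ∈ T.powerset, ∃ c, Tendsto (DK P (p0 p) S k 0) (𝓝[>] 0) (𝓝 c) ∧
      Tendsto (DK P (p0 p) S k 1) (𝓝[>] 0) (𝓝 (-c)) := fun S hS =>
    (hj _ (good_p0 hp) S (mem_powerset.1 hS) k).2
  choose! d d0 using d0
  have d1 := tendsto_finsetSum T.powerset fun S hS => (hw S hS).mul (d0 S hS).1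
  have d2 := tendsto_finsetSum T.powerset fun S hS => (hw S hS).mul (d0 S hS).2
  simp only [mul_neg, sum_neg_distrib] at d2
  have key : ∀ S ∈ T.powerset, ∃ q : ℝ, ∀ e, Tendsto
      (fun a => Pf (ZZ P T (upd p k e) S a) (lb (k :: r))) (𝓝[>] 0) (𝓝 q) := by
    intro S hS
    have hS := mem_powerset.1 hS
    have hL := fun e => ZZ_lim hw (hk (upd p k e) hp S hS).1 (hk (upd p k e) hp S hS).2
      (fun S hS => (hk _ (good_p0 (p := upd p k e) hp) S hS).2) hsn
    choose L hL using hL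
    obtain ⟨⟨τ, hτ, h3⟩, c, c0, c1⟩ := hj p hp S hS k
    have row : ∀ e b, ∀ y ∈ lb r, ∀ c, Tendsto (TK P p S k e b y.1 y.2) (𝓝[>] 0) (𝓝 c) →
        L e (k, b) y = (if b then sj e else 1) * wl p.j y * c := by
      intro e b y hy c hc
      refine tendsto_nhds_unique (hL e _ _ ?_) ((hc.const_mul _).congr fun a =>
        (ZZ_row e a b (hne y hy).symm).symm)
      rw [lb_cons]
      cases b
      · exact (List.singleton_sublist.2 (List.mem_cons_of_mem _ hy)).cons_cons _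
      · exact ((List.singleton_sublist.2 hy).cons_cons _).cons _
    have slf : ∀ e c, Tendsto (fun a => DK P p S k e a -
        ∑ S ∈ T.powerset, wt P T S a * DK P (p0 p) S k e a) (𝓝[>] 0) (𝓝 c) →
        L e (k, false) (k, true) = sj e * c := by
      intro e c hc
      refine tendsto_nhds_unique (hL e _ _ ?_) ((hc.const_mul _).congr fun a => (ZZ_self e a).symm)
      rw [lb_cons]
      exact ((List.nil_sublist _).cons_cons _).cons_cons _
    have hPf : Pf (L 1) (lb (k :: r)) = Pf (L 0) (lb (k :: r)) := by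
      rw [lb_cons]
      refine Pf_head (s := √2) hτ ?_ (fun y hy => ?_) (fun y hy => ?_) fun x y hxy => ?_
      · rw [slf 0 _ (c0.sub d1), slf 1 _ (c1.sub d2), s0, s1]; ring
      · obtain ⟨cA, cB, t1, t2, t3, t4⟩ := h3 y.1 (hne y hy).symm y.2
        rw [row 0 _ y hy _ t1, row 0 _ y hy _ t2, row 1 _ y hy _ t3, s0]
        simp only [Bool.false_eq_true, if_false, if_true]
        ring
      · obtain ⟨cA, cB, t1, t2, t3, t4⟩ := h3 y.1 (hne y hy).symm y.2
        rw [row 0 _ y hy _ t2, row 1 _ y hy _ t4, s0, s1]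
        simp only [if_true]
        ring
      · have h1 : [x, y].Sublist (lb (k :: r)) := by
          rw [lb_cons]
          exact (hxy.cons _).cons _
        exact tendsto_nhds_unique (hL 1 _ _ h1) ((hL 0 _ _ h1).congr fun a =>
          ZZ_rest 0 1 a (hne x (hxy.subset (by simp))) (hne y (hxy.subset (by simp))))
    refine ⟨Pf (L 0) (lb (k :: r)), fun e => ?_⟩
    have h1 : Pf (L 0) (lb (k :: r)) = Pf (L e) (lb (k :: r)) := by
      obtain rfl | rfl : e = 0 ∨ e = 1 := by omega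
      exacts [rfl, hPf.symm]
    rw [h1]
    exact AL.Pf_tendsto _ (L e) _ (hL e)
  choose! q hq using key
  refine ⟨_, fun e => ((tendsto_finsetSum T.powerset fun S hS =>
    (hg S hS).mul (hq S hS e)).div hZ hZ0.ne').congr' ?_⟩
  filter_upwards [corr_eq hJ hF hT (p := upd p k e) hp hsn hs] with a ha
  exact ha.symm

theorem tn_plus {J : ℝ} (hJ : 0 < J) {D : Set ℂ} (hl : Lip4 D) (hs : IsConnected D) :
    TN D (crit J D (some fun _ _ => true)) := by
  obtain ⟨t, R0, hsm⟩ := P144Q.U.exists_small hl.2.1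
  refine tn_div R0 ?_
  have h' := P144S.L.lip4_div R0 hl
  have hs' : IsConnected ((fun z => z / (t : ℂ)) '' D) := hs.image _ (by fun_prop)
  generalize (fun z => z / (t : ℂ)) '' D = D' at hsm h' hs'
  have h3 := P144S.L.lip3_of_lip4 h'
  obtain ⟨Ω, rfl⟩ := V.dom D' h3 hs' hsm
  obtain ⟨Ω', hΩ'⟩ := V.dom _ (P144Q.U.lip3_rc h3) (hs'.image _ P144Q.U.rc_cont.continuousOn)
    (P144Q.U.small_rc hsm)
  have hF := L.slat _ h'
  have st : Std Ω.D := ⟨Ω.op, Ω.small, Ω.fat, hs'.nonempty⟩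
  obtain ⟨T, hT, hR⟩ := L.srep _ _ st hF
  exact fun p hp k => turn hJ hF hR
    (fun p hp S hS => C.k34 Ω _ hF p hp S fun z hz => hT z (hS hz))
    (fun X hX S hS => (F.normW (N.one K.smm) (N.shole (N.big K.smm)) Ω Ω' hΩ' st
      (L.sout _ h3 st.ne) ⟨_, hF⟩ X S hX fun z hz => hT z (hS hz)).imp fun g hg =>
        ⟨hg.1, hg.2 _ hF⟩)
    (fun p hp S hS k => kj hF hp (fun z hz => hT z (hS hz)) k) hp.2 k

end Vale.Agent.P144Y.J

namespace Vale.Agent.P144Y

open Vale.Agent.P144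

/-- **Independence of the directions for the plus and minus boundary conditions.** -/
theorem jind4 {J : ℝ} (hJ : 0 < J) {D : Set ℂ} (hl : Lip4 D) (hs : IsConnected D)
    {b : Option (ℝ → Config)} (hb : b = some (fun _ _ => true) ∨ b = some fun _ _ => false)
    {p : Pts} (hp : Good D p) {c : ℝ} (hc : Lim (crit J D b) p c) (j : Fin p.m → Fin 2) :
    Lim (crit J D b) { p with j := j } c := by
  rcases hb with rfl | rfl
  exacts [(P144Y.J.tn_plus hJ hl hs).all hp hc j,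
    (P144X.P.tn_minus (P144Y.J.tn_plus hJ hl hs)).all hp hc j]

end Vale.Agent.P144Y
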